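import Vale.Agent.P065.Chains

open Vale.Agent.P065

/-- A point set split into a part without long caps and a part without long cups has few
`j`-edges. -/
theorem Vale.Agent.Results.P065.CupCapSplit.result (P A : Finset (ℝ × ℝ)) (a b j : ℕ)
    (hx : ∀ p ∈ P, ∀ q ∈ P, p ≠ q → p.1 ≠ q.1)
    (hcol : ∀ p ∈ P, ∀ q ∈ P, ∀ r ∈ P, p ≠ q → q ≠ r → p ≠ r → orient p q r ≠ 0)
    (hA : ∀ S : Finset (ℝ × ℝ), S ⊆ A →
      (∀ x ∈ S, ∀ y ∈ S, ∀ z ∈ S, x.1 < y.1 → y.1 < z.1 → orient x y z < 0) → S.card ≤ a)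
    (hB : ∀ S : Finset (ℝ × ℝ), S ⊆ P \ A →
      (∀ x ∈ S, ∀ y ∈ S, ∀ z ∈ S, x.1 < y.1 → y.1 < z.1 → 0 < orient x y z) → S.card ≤ b) :
    ((P ×ˢ P).filter fun e => e.1.1 < e.2.1 ∧
        (P.filter fun r => orient e.1 e.2 r < 0).card = j).card
      ≤ (j + 1) * b + (P.card - 1 - j) * a := by
  classical
  convert edge_bound P A ⟨hx, hcol⟩ a b j hA hB using 2
  ext e
  simp [edges]
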